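import Vale.Agent.P022.H431.Sv.Defs

/-!
P022-L3, [SOLV], block [IND]: the monomial irreducible case does not occur.
-/

open NumberField Matrix

noncomputable section

namespace Vale.Agent.P022.H315.Sv

open Vale.Agent.P022 Vale.Agent.P022.Sv

/-- a non-trivial character of finite image with values in a field of characteristic 2 gives a
non-trivial character of odd prime order -/
theorem exists_theta {k : Type} [Field k] [CharP k 2] {G : Type} [Group G] (χ : G →* kˣ)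
    (hf : Finite χ.range) (g₀ : G) (h₀ : χ g₀ ≠ 1) :
    ∃ (q : ℕ) (θ : G →* Multiplicative (ZMod q)), q.Prime ∧ q ≠ 2 ∧ (∀ g, χ g = 1 → θ g = 1) ∧
      ∃ g, θ g ≠ 1 := by
  have hc : IsCyclic χ.range := inferInstance
  have hn1 : Nat.card χ.range ≠ 1 := by
    intro h
    have h2 := (Nat.card_eq_one_iff_unique.1 h).1
    apply h₀
    have h1 := @Subsingleton.elim χ.range h2 ⟨χ g₀, g₀, rfl⟩ 1
    exact congrArg Subtype.val h1
  obtain ⟨q, hq, hqn⟩ := Nat.exists_prime_and_dvd hn1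
  have hq2 : q ≠ 2 := by
    rintro rfl
    have h2' : Fact (Nat.Prime 2) := ⟨hq⟩
    obtain ⟨x, hx⟩ := exists_prime_orderOf_dvd_card' 2 hqn
    have h1 : x ^ 2 = 1 := by rw [← hx]; exact pow_orderOf_eq_one x
    have h2 : (((x : kˣ) : k)) ^ 2 = 1 := by
      have h3 : ((x ^ 2 : χ.range) : kˣ) = 1 := by rw [h1]; rfl
      have h4 : ((((x : kˣ)) ^ 2 : kˣ) : k) = 1 := by
        rw [← Units.val_one, ← h3]
        rfl
      rwa [Units.val_pow_eq_pow_val] at h4
    have h3 : ((x : kˣ) : k) = 1 := by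
      have h5 : (2 : k) = 0 := CharTwo.two_eq_zero
      have h4 : (((x : kˣ) : k) - 1) ^ 2 = 0 := by
        linear_combination h2 + (1 - ((x : kˣ) : k)) * h5
      exact sub_eq_zero.1 (pow_eq_zero_iff (two_ne_zero) |>.1 h4)
    have h6 : x = 1 := Subtype.ext (Units.ext h3)
    rw [h6, orderOf_one] at hx
    exact absurd hx (by norm_num)
  let e := zmodCyclicMulEquiv hc
  let f : ZMod (Nat.card χ.range) →+ ZMod q := (ZMod.castHom hqn (ZMod q)).toAddMonoidHom
  let θ : G →* Multiplicative (ZMod q) :=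
    (AddMonoidHom.toMultiplicative f).comp (e.symm.toMonoidHom.comp χ.rangeRestrict)
  refine ⟨q, θ, hq, hq2, fun g hg => ?_, ?_⟩
  · have h1 : χ.rangeRestrict g = 1 := Subtype.ext hg
    change (AddMonoidHom.toMultiplicative f) (e.symm (χ.rangeRestrict g)) = 1
    rw [h1, map_one, map_one]
  · obtain ⟨g, hg⟩ := χ.rangeRestrict_surjective (e (Multiplicative.ofAdd 1))
    refine ⟨g, ?_⟩
    change (AddMonoidHom.toMultiplicative f) (e.symm (χ.rangeRestrict g)) ≠ 1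
    rw [hg, MulEquiv.symm_apply_apply]
    change Multiplicative.ofAdd (ZMod.castHom hqn (ZMod q) 1) ≠ Multiplicative.ofAdd 0
    rw [map_one]
    have hq1 : Fact (1 < q) := ⟨hq.one_lt⟩
    intro h
    exact one_ne_zero (Multiplicative.ofAdd.injective h)

theorem core (hO : OddStmt) {K : Type} [Field K] [NumberField K] (j : K →+* Qb) (s : 𝓞 K) (d : ℤ)
    (h2 : Module.finrank ℚ K = 2) (hd : d ∈ ({-1, 2, -2, 3, -3, 6, -6} : Finset ℤ))
    (hs : s ^ 2 = (d : 𝓞 K)) {k : Type} [Field k] [CharP k 2] (χ : GK j →* kˣ)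
    (hopen : IsOpen ((GK j : Subgroup GQ) : Set GQ)) (V : Set GQ) (hV : V ∈ nhds (1 : GQ))
    (hχ : ∀ g : GK j, (g : GQ) ∈ V → χ g = 1)
    (hu : ∀ ℓ : ℕ, ℓ.Prime → ℓ ≠ 2 → ∀ P : Ideal (𝓞 Qb), P.IsPrime → (ℓ : 𝓞 Qb) ∈ P →
      ∀ g : GK j, (∀ x : 𝓞 Qb, (g : GQ) • x - x ∈ P) → χ g = 1) : ∀ g, χ g = 1 := by
  by_contra hne
  push Not at hne
  obtain ⟨g₀, hg₀⟩ := hne
  have hker : IsOpen (χ.ker : Set (GK j)) := by
    refine Subgroup.isOpen_of_mem_nhds χ.ker (g := 1) ?_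
    have h1 : (Subtype.val : GK j → GQ) ⁻¹' V ∈ nhds (1 : GK j) :=
      continuous_subtype_val.continuousAt.preimage_mem_nhds (by simpa using hV)
    exact Filter.mem_of_superset h1 (fun g hg => hχ g hg)
  have a1 : Algebra.IsAlgebraic ℚ Qb := AlgebraicClosure.isAlgebraic ℚ
  have a2 : IsAlgClosure ℚ Qb := ⟨inferInstance, inferInstance⟩
  have a3 : IsGalois ℚ Qb := IsAlgClosure.isGalois ℚ Qb
  have a4 : CompactSpace GQ := inferInstance
  have hfin : Finite (GK j ⧸ χ.ker) :=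
    Subgroup.quotient_finite_of_isOpen' (GK j) χ.ker hopen hker
  have hf : Finite χ.range := Finite.of_equiv _ (QuotientGroup.quotientKerEquivRange χ).toEquiv
  obtain ⟨q, θ, hq, hq2, hθ, g₁, hg₁⟩ := exists_theta χ hf g₀ hg₀
  have hθo : IsOpen (θ.ker : Set (GK j)) :=
    Subgroup.isOpen_mono (fun g hg => hθ g hg) hker
  exact hg₁ (hO K j s d h2 hd hs q hq hq2 θ hθo
    (fun ℓ hℓ hℓ2 P hP hℓP g hg => hθ g (hu ℓ hℓ hℓ2 P hP hℓP g hg)) g₁)

theorem trace_zero {E : Type} [Field E] (A : Matrix (Fin 2) (Fin 2) E) (h : A * A = 1)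
    (hd : A.det = -1) : A.trace = 0 := by
  have h00 : A 0 0 * A 0 0 + A 0 1 * A 1 0 = 1 := by
    have := congrFun (congrFun h 0) 0
    rwa [Matrix.mul_apply, Fin.sum_univ_two, Matrix.one_apply_eq] at this
  have h11 : A 1 0 * A 0 1 + A 1 1 * A 1 1 = 1 := by
    have := congrFun (congrFun h 1) 1
    rwa [Matrix.mul_apply, Fin.sum_univ_two, Matrix.one_apply_eq] at this
  rw [Matrix.det_fin_two] at hd
  rw [Matrix.trace_fin_two]
  have h4 : (A 0 0 + A 1 1) ^ 2 = 0 := by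
    linear_combination h00 + h11 + 2 * hd
  exact (pow_eq_zero_iff two_ne_zero).1 h4

/-- the ring homomorphism `π` kills the elements of norm less than one -/
theorem pi_small {E : Type} [NontriviallyNormedField E] [NormedAlgebra ℚ_[2] E]
    (O : Subring E) (hO : ∀ x : E, x ∈ O ↔ ‖x‖ ≤ 1) {k : Type} [Field k] [CharP k 2]
    (π : O →+* k) (a : O) (ha : ‖(a : E)‖ < 1) : π a = 0 := by
  have h2 : ‖(2 : E)‖ = 1 / 2 := by
    have h := norm_algebraMap' E (2 : ℚ_[2])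
    rw [map_ofNat] at h
    rw [h]
    have h3 := Padic.norm_p (p := 2)
    norm_num at h3 ⊢
    exact h3
  obtain ⟨n, hn⟩ := exists_pow_lt_of_lt_one (show (0 : ℝ) < 1 / 2 by norm_num) ha
  have h20 : (2 : E) ≠ 0 := by
    intro h
    rw [h, norm_zero] at h2
    norm_num at h2
  have hy : ((a : E) ^ n / 2) ∈ O := by
    rw [hO, norm_div, norm_pow, h2, div_le_iff₀ (by norm_num), one_mul]
    exact hn.le
  have h3 : a ^ n = 2 * ⟨(a : E) ^ n / 2, hy⟩ := by
    apply Subtype.ext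
    have c2 : ((2 : O) : E) = 2 := rfl
    push_cast
    rw [c2]
    field_simp
  have h4 : π a ^ n = 0 := by
    rw [← map_pow, h3, map_mul, map_ofNat, CharTwo.two_eq_zero, zero_mul]
  exact eq_zero_of_pow_eq_zero h4

theorem ind (hQ : QuadStmt) (hO : OddStmt) : IndStmt := by
  intro E _ _ _ r hr hunr hP O hOm k _ _ π t ht M χ₁ χ₂ hM h1 h0
  by_contra hne
  push Not at hne
  obtain ⟨m₀, hm₀⟩ := hne
  have two : (2 : k) = 0 := CharTwo.two_eq_zero
  have htr : ∀ g h : GQ, ‖(r g : Matrix (Fin 2) (Fin 2) E).trace -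
      (r h : Matrix (Fin 2) (Fin 2) E).trace‖ < 1 → t g = t h := by
    intro g h hlt
    obtain ⟨a, ha, ha'⟩ := ht g
    obtain ⟨b, hb, hb'⟩ := ht h
    have h3 : π (a - b) = 0 := pi_small O hOm π _ (by
      change ‖(a : E) - (b : E)‖ < 1
      rw [ha, hb]; exact hlt)
    rw [map_sub, sub_eq_zero] at h3
    rw [← ha', ← hb', h3]
  have htr' : ∀ g h : GQ, r g = r h → t g = t h := by
    intro g h hgh
    refine htr g h ?_
    rw [hgh, sub_self, norm_zero]
    exact one_pos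
  have hunit : ∀ a b : kˣ, (a : k) + b = 0 → a = b := by
    intro a b h
    refine Units.ext ?_
    linear_combination h - (b : k) * two
  have tm0 : t m₀ ≠ 0 := by
    intro h
    rw [h1] at h
    exact hm₀ (hunit _ _ h)
  have t1 : t 1 = 1 + 1 := by
    have h := h1 1
    rw [map_one, map_one, Units.val_one] at h
    exact h
  have key : ∀ g : GQ, t g = t 1 → t (g * m₀) = t m₀ →
      ∃ hg : g ∈ M, χ₁ ⟨g, hg⟩ = 1 ∧ χ₂ ⟨g, hg⟩ = 1 := by
    intro g hg1 hg2
    have hg : g ∈ M := by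
      by_contra hg
      apply tm0
      rw [← hg2]
      exact h0 _ (fun h => hg ((M.mul_mem_cancel_right m₀.2).1 h))
    refine ⟨hg, ?_⟩
    have e1 := h1 ⟨g, hg⟩
    have e2 := h1 (⟨g, hg⟩ * m₀)
    have e3 := h1 m₀
    change t g = _ at e1
    change t (g * m₀) = _ at e2
    rw [hg1, t1] at e1
    rw [hg2, e3, map_mul, map_mul, Units.val_mul, Units.val_mul] at e2
    have hAB : (χ₁ m₀ : k) + χ₂ m₀ ≠ 0 := fun h => hm₀ (hunit _ _ h)
    have ha : (χ₁ ⟨g, hg⟩ : k) = 1 := by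
      have h5 : ((χ₁ ⟨g, hg⟩ : k) - 1) * ((χ₁ m₀ : k) + χ₂ m₀) = 0 := by
        linear_combination -e2 - (χ₂ m₀ : k) * e1 +
          ((χ₂ m₀ : k) * (1 - (χ₂ ⟨g, hg⟩ : k))) * two
      rcases mul_eq_zero.1 h5 with h | h
      · exact sub_eq_zero.1 h
      · exact absurd h hAB
    refine ⟨Units.ext (by rw [ha, Units.val_one]), Units.ext ?_⟩
    rw [Units.val_one]
    linear_combination -e1 - ha
  have hf : Continuous (fun g : GQ => (r g : Matrix (Fin 2) (Fin 2) E).trace) :=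
    (Units.continuous_val.comp hr).matrix_trace
  let V : Set GQ := {g | ‖(r g : Matrix (Fin 2) (Fin 2) E).trace -
      (r 1 : Matrix (Fin 2) (Fin 2) E).trace‖ < 1} ∩
    {g | ‖(r (g * m₀) : Matrix (Fin 2) (Fin 2) E).trace -
      (r m₀ : Matrix (Fin 2) (Fin 2) E).trace‖ < 1}
  have hV : V ∈ nhds (1 : GQ) := by
    have hf2 : Continuous (fun g : GQ => (r (g * m₀) : Matrix (Fin 2) (Fin 2) E).trace) :=
      hf.comp (continuous_mul_const _)
    refine Filter.inter_mem (IsOpen.mem_nhds (isOpen_lt (hf.sub continuous_const).norm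
      continuous_const) ?_) (IsOpen.mem_nhds (isOpen_lt (hf2.sub continuous_const).norm
      continuous_const) ?_)
    · simp
    · simp
  have hVk : ∀ g ∈ V, ∃ hg : g ∈ M, χ₁ ⟨g, hg⟩ = 1 ∧ χ₂ ⟨g, hg⟩ = 1 :=
    fun g hg => key g (htr _ _ hg.1) (htr _ _ hg.2)
  have hMo : IsOpen (M : Set GQ) :=
    Subgroup.isOpen_of_mem_nhds M (g := 1) (Filter.mem_of_superset hV (fun g hg => (hVk g hg).1))
  have hone : ∀ g : GQ, r g = 1 → ∃ hg : g ∈ M, χ₁ ⟨g, hg⟩ = 1 ∧ χ₂ ⟨g, hg⟩ = 1 := by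
    intro g hg
    refine key g (htr' _ _ (by rw [hg, map_one])) (htr' _ _ ?_)
    rw [map_mul, hg, one_mul]
  obtain ⟨K, _, _, j, s, d, hK, hK2, hd, hs⟩ := hQ M hMo hM (by
    intro ℓ hℓ h6 P hPr hℓP g hg
    have hℓ2 : ℓ ≠ 2 := by rintro rfl; exact h6 (by norm_num)
    have hℓ3 : ℓ ≠ 3 := by rintro rfl; exact h6 (by norm_num)
    exact (hone g (hunr ℓ hℓ hℓ2 hℓ3 P hPr hℓP g hg)).1)
  subst hK
  have hfin := core hO j s d hK2 hd hs (χ₁ / χ₂) hMo V hV
    (by
      intro g hg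
      obtain ⟨_, ha, hb⟩ := hVk g hg
      rw [MonoidHom.div_apply]
      change χ₁ ⟨g, g.2⟩ / χ₂ ⟨g, g.2⟩ = 1
      rw [ha, hb, div_one])
    (by
      intro ℓ hℓ hℓ2 P hPr hℓP g hg
      rw [MonoidHom.div_apply]
      have hcase : r g = 1 → χ₁ g / χ₂ g = 1 := by
        intro h
        obtain ⟨_, ha, hb⟩ := hone g h
        change χ₁ ⟨g, g.2⟩ / χ₂ ⟨g, g.2⟩ = 1
        rw [ha, hb, div_one]
      by_cases hℓ3 : ℓ = 3
      · subst hℓ3
        rcases hP.2 P hPr hℓP g hg with h | ⟨h, hdet⟩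
        · exact hcase h
        · have hA : (r g : Matrix (Fin 2) (Fin 2) E) * (r g : Matrix (Fin 2) (Fin 2) E) = 1 := by
            rw [← Units.val_mul, h, Units.val_one]
          have ht0 := trace_zero _ hA hdet
          obtain ⟨a, ha, ha'⟩ := ht g
          rw [ht0] at ha
          have ha0 : a = 0 := Subtype.ext ha
          rw [ha0, map_zero, h1] at ha'
          rw [hunit _ _ ha'.symm, div_self']
      · exact hcase (hunr ℓ hℓ hℓ2 hℓ3 P hPr hℓP g hg))
  have h := hfin m₀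
  rw [MonoidHom.div_apply, div_eq_one] at h
  exact hm₀ h

end Vale.Agent.P022.H315.Sv
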